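import Vale.Agent.P154.DE.R7.Run0
import Vale.Agent.P154.DE.R7.Run1

/-!
Certified recursion for 7 children and eigenvalues in [-31/82, 0].

Generated by notes/P154_DE/helper7/regcert.py.
-/

set_option maxRecDepth 10000

namespace Vale.Agent.P154.Q3.DE.R7

noncomputable def baseCheck : Bool :=
  Nat.beq start0.length par.K && Nat.ble par.S (2 * par.G * start0.getD 0 0)

theorem baseCheck_ok : baseCheck = true := by decide +kernel

theorem level0 : DomP (lik (-(par.p : ℝ) / par.q) 0 (regTree 7 0))
    (gch (gridList par.K par.P) start0 par.S) :=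
  run_start valid 7 (Bool.and_eq_true _ _ ▸ baseCheck_ok).1 (Bool.and_eq_true _ _ ▸ baseCheck_ok).2

theorem level1 : DomP (lik (-(par.p : ℝ) / par.q) 38 (regTree 7 38))
    (gch (gridList par.K par.P) start1 par.S) :=
  run_sound valid levels0 start0 0 check0_ok level0

theorem level2 : DomP (lik (-(par.p : ℝ) / par.q) 69 (regTree 7 69))
    (gch (gridList par.K par.P) (runEnd levels1 start1) par.S) :=
  run_sound valid levels1 start1 38 check1_ok level1

noncomputable def finalCheck : Bool :=
  Nat.ble (dot (runEnd levels1 start1) (mapK nsqN (gridList par.K par.P))) 34922274140502 &&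
    Nat.ble (dot (runEnd levels1 start1) (mapK (fun v => nsqN v * nsqN v) (gridList par.K par.P))) 1924231255390181016

theorem finalCheck_ok : finalCheck = true := by decide +kernel

/-- `mu = 31/82`, `P0 = 827/1000`, `A0 = 1157/1000`, `N0 = 69`. -/
theorem bounds {lam : ℝ} (h0 : -((31 : ℝ) / 82) ≤ lam) (h1 : lam ≤ 0) :
    fval (rf fun r => ∑ i, r i ^ 2) (lik lam 69 (regTree 7 69)) ≤ (827 : ℝ) / 1000 ∧
      2 * fval (rf fun r => ∑ i, r i ^ 4) (lik lam 69 (regTree 7 69)) ≤ (1157 : ℝ) / 1000 := by
  have hf := finalCheck_ok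
  rw [finalCheck, Bool.and_eq_true] at hf
  have := run_bounds valid (show 0 < 31 by norm_num) level2 hf.1 hf.2
    (lam := lam) (by simpa [par, neg_div] using h0) h1
  refine ⟨this.1.trans ?_, this.2.trans ?_⟩ <;> norm_num [par]

/-- The interval reaches the Kesten-Stigum bound. -/
theorem reach : (1 : ℝ) ≤ 7 * ((31 : ℝ) / 82) ^ 2 := by norm_num

end Vale.Agent.P154.Q3.DE.R7
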